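import Vale.Agent.P280.H398.Gen

namespace Vale.Agent.Results.P280.ContactGenerated

open Vale.Agent.P292 Vale.Agent.P292.H442 Vale.Agent.P280.H398

universe u v

/-- The Campana-Peternell conjecture for Fano manifolds with a contact structure, in a strong
form: every Fano manifold of dimension at least three which carries a contact structure is
rational homogeneous (the adjoint variety of a simple Lie algebra), its tangent bundle is
generated by the contact vector fields, it is an intersection of quadrics in the projective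
space of `H⁰(X, L)`, its contact automorphisms act transitively, it is determined by the Lie
algebra of its contact vector fields, and the spaces `H⁰(X, L ^ k)` are irreducible. -/
theorem result {R : Type u} [CommRing R] [Algebra ℂ R] (𝒜 : ℕ → Submodule ℂ R)
    [GradedAlgebra 𝒜] (P : R →ₗ[ℂ] R →ₗ[ℂ] R) (hX : IsContactFano 𝒜 P)
    (hdim : 3 ≤ Algebra.trdeg ℂ R) :
    IsAdjointVariety 𝒜 P ∧ IsGeneratedByContactFields 𝒜 P ∧ IsIntersectionOfQuadrics 𝒜 ∧
      IsTransitive 𝒜 P ∧ IsDeterminedByLie.{u, v} 𝒜 P ∧ HasIrreduciblePieces 𝒜 P := by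
  have hC := hasCore hX hdim
  have hA := isAdjointVariety_of_contactFano hX hdim
  refine ⟨hA, generated hX hA, fun l hl => isCutOutByQuadrics hC l hl,
    fun p q hp hq => exists_auto hC p q hp hq, ?_, fun k N hN hst => irreducible hC k N hN hst⟩
  intro R' _ _ 𝒜' _ P' hX' hdim' f hf
  obtain ⟨F, hF, hFf⟩ := exists_extension hC (hasCore hX' hdim')
    (show LieOne hX ≃ₗ[ℂ] LieOne hX' from f) (fun u v => by
      apply LieOne.incl_injective hX'
      rw [LieOne.incl_lie]
      exact (hf u v (⁅u, v⁆ : LieOne hX) rfl).symm)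
  refine ⟨F, ⟨hF, fun a => hFf a⟩, fun G hG => ?_⟩
  have h1 : (G : R →ₐ[ℂ] R') = (F : R →ₐ[ℂ] R') :=
    hom_ext hC.adjoin fun r hr => by
      change G r = F r
      have h2 := hG.2 ⟨r, hr⟩
      have h3 : F r = f ⟨r, hr⟩ := hFf ⟨r, hr⟩
      rw [h3, ← h2]
  exact AlgEquiv.coe_toAlgHom_injective h1

end Vale.Agent.Results.P280.ContactGenerated
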