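import Vale.Agent.P280.H398.Gen
import Vale.Agent.P292.H180.Fin

namespace Vale.Agent.Results.P280.ContactQuadrics

open Vale.Agent.P292 Vale.Agent.P280.H398

universe u v

/-- The Campana-Peternell conjecture for Fano manifolds with a contact structure, with the
equations and the symmetries of the manifold: every Fano manifold `X` of dimension at least
three which carries a contact structure is rational homogeneous; its tangent bundle is generated
by contact vector fields; its homogeneous ideal in the projective space of `H⁰(X, L)` is
generated by quadrics; its contact automorphisms act transitively; its infinitesimal contact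
automorphisms (the derivations of the section ring of degree zero that respect the bracket) are
exactly the sections of `L`, each in one way. -/
theorem result {R : Type u} [CommRing R] [Algebra ℂ R] (𝒜 : ℕ → Submodule ℂ R)
    [GradedAlgebra 𝒜] (P : R →ₗ[ℂ] R →ₗ[ℂ] R) (hX : IsContactFano 𝒜 P)
    (hdim : 3 ≤ Algebra.trdeg ℂ R) :
    IsAdjointVariety 𝒜 P ∧ IsGeneratedByContactFields 𝒜 P ∧
    (∀ {κ : Type v} (b : Module.Basis κ ℂ (𝒜 1)),
      RingHom.ker (MvPolynomial.aeval (fun j => (b j : R)) : MvPolynomial κ ℂ →ₐ[ℂ] R) =
        Ideal.span {G | G.IsHomogeneous 2 ∧ MvPolynomial.aeval (fun j => (b j : R)) G = 0}) ∧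
    H442.IsTransitive 𝒜 P ∧
    (∀ D : Derivation ℂ R R, (∀ a b, D (P a b) = P (D a) b + P a (D b)) →
      (∀ a ∈ 𝒜 1, D a ∈ 𝒜 1) → ∃! h : R, h ∈ 𝒜 1 ∧ ∀ a, D a = P h a) := by
  have hC := H442.hasCore hX hdim
  have hA := isAdjointVariety_of_contactFano hX hdim
  exact ⟨hA, generated hX hA, fun b => H180.quadrics hC b,
    fun p q hp hq => H442.exists_auto hC p q hp hq,
    fun D hD hD0 => H180.inner_zero hC D hD hD0⟩

end Vale.Agent.Results.P280.ContactQuadrics
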